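import Vale.Agent.P028.MathlibUsed
import Vale.Agent.P028.H232.Fr
import Vale.Agent.P028.H530.Delta
import Vale.Agent.P028.R764.LkDefs
attribute [-instance] ProperSMul.toContinuousSMul IsTopologicalTorsor.toContinuousSMul IdemSemiring.toCanonicallyOrderedAdd IdemSemiring.toMulLeftMono IdemSemiring.toMulRightMono AddQuantale.instAddLeftMono AddQuantale.instAddRightMono Quantale.instMulLeftMono Quantale.instMulRightMono FiniteDimensional.rclike_to_real IsScalarTower.complexToReal FiniteDimensional.complexToReal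

/-!
# Words cut at the prime `x`: definitions

`R` : a number (a modulus whose part at the primes `≤ x` is normalised). The dilution of its phase
which starts at the stage `a` is cut at `x`; a fill of `R` at the stage `i` is a divisor `m` of `R`
whose primes are unsplit non-deviating primes in `(x, z i]`; the filled number is `R / m`.
-/

namespace Vale.P028.SK

open Finset CF RN

/-- the dilution of the number `R`, phase starting at the stage `a`, cut at the prime `x` -/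
noncomputable def dst (g : Cfg) (c1 c : ℝ) (x a R p : ℕ) : ℝ :=
  H669.dl (muw g c1 R) (uw g R) c (N g - z g a) (N g - x) (N g - p)

/-- the weight of a fill -/
noncomputable def wf (g : Cfg) (c1 c : ℝ) (x a R m : ℕ) : ℝ :=
  ∏ p ∈ m.primeFactors, dst g c1 c x a R p

/-- `m` is a fill of `R` at the stage `i`, above the cut `x` -/
def Fil (g : Cfg) (x i R m : ℕ) : Prop :=
  R ≠ 0 ∧ m ∣ R ∧ ∀ p ∈ m.primeFactors, x < p ∧ p ≤ z g i ∧ R.factorization p = kc g R p ∧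
    ¬ Spl g R p

/-- the deviating primes `> x` of the number `R` -/
noncomputable def Dvx (g : Cfg) (x R : ℕ) : Finset ℕ :=
  (Icc (x + 1) (N g)).filter (fun p => p.Prime ∧ R.factorization p < kc g R p)

/-- **A pair at the stage `i`** : fills `u1`, `v1` of the two numbers, rest pattern `u2`, `v2`
composed of primes at which both deviate; the two filled numbers have, up to the rest pattern, the
same future. -/
structure PairX (g : Cfg) (x i R R' u1 u2 v1 v2 H : ℕ) : Prop where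
  fil : Fil g x i R u1
  fil' : Fil g x i R' v1
  cop : u2.Coprime v2
  pos : 0 < u2 ∧ 0 < v2
  dev : ∀ p ∈ (u2 * v2).primeFactors, x < p ∧ p ≤ z g i ∧ R.factorization p < kc g R p ∧
    R'.factorization p < kc g R' p
  rel : H * v2 = R' / v1 * u2
  sf : Sf g i H (R / u1)

/-- **A family of groups cut at `x`**: number `nu`, size `hl` of the inner part, adoption stage
`cc`, mass `Fm`. -/
structure FamX (g : Cfg) (x : ℕ) {β : Type*} (S : Finset β) (nu : β → ℕ) (hl : β → ℤ)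
    (Fm : β → ℝ) : Prop where
  inj : ∀ e ∈ S, ∀ e' ∈ S, nu e = nu e' → hl e = hl e' → e = e'
  pos : ∀ e ∈ S, 0 < nu e
  gd : ∀ e ∈ S, ∀ p, (Qc g (nu e)).factorization p ≤ Eb g
  dev : ∀ e ∈ S, ∑ p ∈ Dvx g x (nu e), (p : ℝ) ^ (-(1 / 3) : ℝ) ≤ 1 / 4
  mass : ∀ e ∈ S, 0 ≤ Fm e

/-- the bound of one pair of groups with the exponent `θ` on the side of `e`; the rest pattern
has the slack `(u2 v2)^(min θ (1 - θ) - 2 / 5)` -/
noncomputable def bdX (g : Cfg) (c1 c : ℝ) (x i : ℕ) (θ : ℝ) (a a' R R' : ℕ) (F F' : ℝ)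
    (u1 u2 v1 v2 : ℕ) : ℝ :=
  wf g c1 c x a R u1 * wf g c1 c x a' R' v1 * ((u2 : ℝ) * v2) ^ (min θ (1 - θ) - 2 / 5) *
    ((F * Wt g i R' / (u1 * u2)) ^ θ * (F' * Wt g i R / (v1 * v2)) ^ (1 - θ))

/-- **The energy theorem at a cut** (one exponent `θ`), constant `C` -/
def X2t (c1 c θ C : ℝ) : Prop :=
  ∀ (g : Cfg) (x : ℕ), zs g ≤ x → 2 ≤ c1 * zs g →
  ∀ {β : Type} (S : Finset β) (nu : β → ℕ) (hl : β → ℤ) (cc : β → ℕ) (Fm : β → ℝ),
    FamX g x S nu hl Fm →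
  ∀ (A B : ℝ) (bt : ℤ → ℝ), 0 ≤ A → (∀ l, 0 ≤ bt l) → (∀ T : Finset ℤ, ∑ l ∈ T, bt l ≤ B) →
  ∀ (I : Finset ℕ) (E : ℕ → β → β → ℝ), (∀ i ∈ I, x ≤ z g i) →
    (∀ i ∈ I, ∀ e ∈ S, ∀ e' ∈ S, 0 ≤ E i e e' ∧ (E i e e' ≠ 0 → max (cc e) (cc e') = i ∧
      ∃ u1 u2 v1 v2 H, PairX g x i (nu e) (nu e') u1 u2 v1 v2 H ∧
        E i e e' ≤ A * bt (hl e' - hl e) *
          bdX g c1 c x i θ (cc e) (cc e') (nu e) (nu e') (Fm e) (Fm e') u1 u2 v1 v2)) →
    ∑ i ∈ I, ∑ e ∈ S, ∑ e' ∈ S, E i e e' ≤ C * A * B * ∑ e ∈ S, Fm e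

/-- **The energy theorem at a cut** -/
def X2 (c1 c C : ℝ) : Prop :=
  ∀ (g : Cfg) (x : ℕ), zs g ≤ x → 2 ≤ c1 * zs g →
  ∀ {β : Type} (S : Finset β) (nu : β → ℕ) (hl : β → ℤ) (cc : β → ℕ) (Fm : β → ℝ),
    FamX g x S nu hl Fm →
  ∀ (A B : ℝ) (bt : ℤ → ℝ), 0 ≤ A → (∀ l, 0 ≤ bt l) → (∀ T : Finset ℤ, ∑ l ∈ T, bt l ≤ B) →
  ∀ (I : Finset ℕ) (E : ℕ → β → β → ℝ), (∀ i ∈ I, x ≤ z g i) →
    (∀ i ∈ I, ∀ e ∈ S, ∀ e' ∈ S, 0 ≤ E i e e' ∧ (E i e e' ≠ 0 → max (cc e) (cc e') = i ∧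
      ∃ u1 u2 v1 v2 H, PairX g x i (nu e) (nu e') u1 u2 v1 v2 H ∧
        E i e e' ≤ A * bt (hl e' - hl e) *
          (bdX g c1 c x i (1 / 2) (cc e) (cc e') (nu e) (nu e') (Fm e) (Fm e') u1 u2 v1 v2 +
          bdX g c1 c x i (9 / 20) (cc e) (cc e') (nu e) (nu e') (Fm e) (Fm e') u1 u2 v1 v2))) →
    ∑ i ∈ I, ∑ e ∈ S, ∑ e' ∈ S, E i e e' ≤ C * A * B * ∑ e ∈ S, Fm e

variable {g : Cfg}

theorem dst_nonneg {c1 c : ℝ} (h1 : 0 ≤ c1) (hc : 0 ≤ c) (x a R p : ℕ) :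
    0 ≤ dst g c1 c x a R p := H669.dl_nonneg hc (muw_nonneg h1 R) _ _ _

theorem dst_le {c1 c : ℝ} (h1 : 0 ≤ c1) (hc : 0 ≤ c) (x a R p : ℕ) :
    dst g c1 c x a R p ≤ c := H669.dl_le hc (muw_nonneg h1 R) _ _ _

/-- a constant factor in front of the dilution is a change of `c` -/
theorem dst_smul (c1 c lam : ℝ) (x a R p : ℕ) :
    dst g c1 (lam * c) x a R p = lam * dst g c1 c x a R p := by
  unfold dst H669.dl
  split_ifs
  · ring
  · ring

theorem wf_nonneg {c1 c : ℝ} (h1 : 0 ≤ c1) (hc : 0 ≤ c) (x a R m : ℕ) :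
    0 ≤ wf g c1 c x a R m := prod_nonneg fun _ _ => dst_nonneg h1 hc _ _ _ _

theorem wf_smul (c1 c lam : ℝ) (x a R m : ℕ) :
    wf g c1 (lam * c) x a R m = ∏ p ∈ m.primeFactors, lam * dst g c1 c x a R p :=
  prod_congr rfl fun _ _ => dst_smul _ _ _ _ _ _ _

theorem wf_one (c1 c : ℝ) (x a R : ℕ) : wf g c1 c x a R 1 = 1 := by
  unfold wf
  rw [Nat.primeFactors_one, prod_empty]

theorem Fil.one {x i R : ℕ} (h : R ≠ 0) : Fil g x i R 1 :=
  ⟨h, one_dvd R, fun p hp => absurd hp (by rw [Nat.primeFactors_one]; exact notMem_empty p)⟩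

theorem Fil.mono {x i j R m : ℕ} (h : Fil g x j R m) (hij : z g j ≤ z g i) : Fil g x i R m :=
  ⟨h.1, h.2.1, fun p hp => ⟨(h.2.2 p hp).1, (h.2.2 p hp).2.1.trans hij, (h.2.2 p hp).2.2⟩⟩

end Vale.P028.SK
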