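import Vale.Agent.P028.MathlibUsed
import Vale.Agent.P028.H758.Doob
attribute [-instance] ProperSMul.toContinuousSMul IsTopologicalTorsor.toContinuousSMul IdemSemiring.toCanonicallyOrderedAdd IdemSemiring.toMulLeftMono IdemSemiring.toMulRightMono AddQuantale.instAddLeftMono AddQuantale.instAddRightMono Quantale.instMulLeftMono Quantale.instMulRightMono FiniteDimensional.rclike_to_real IsScalarTower.complexToReal FiniteDimensional.complexToReal

/-!
# The form over the adoption times, with leaks and patterns, in `L^p`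

Frame of `H758.Doob`: words `X`, nested classes.  A family `S` of elements `x` with an adoption
index `c x`, a vector `ξ x` and images `im x t`, `t ∈ T` (patterns and filled places), of weight
`L i x t` at the index `i ≥ c x`.  The column of the images is bounded only for every FIXED index
`i`.  The sum over the adoption times of the averages of the new elements is bounded in `L^p`
(Garsia - Neveu instead of Doob).
-/

namespace Vale.P028.Dp

open Finset Db

variable {α β τ : Type*}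

/-! ### Elementary inequalities -/

/-- weighted Hölder inequality -/
theorem wholder {ι : Type*} (s : Finset ι) {w a b : ι → ℝ} {p q : ℝ} (hpq : p.HolderConjugate q)
    (hw : ∀ i ∈ s, 0 ≤ w i) (ha : ∀ i ∈ s, 0 ≤ a i) (hb : ∀ i ∈ s, 0 ≤ b i) :
    ∑ i ∈ s, w i * (a i * b i) ≤
      (∑ i ∈ s, w i * a i ^ p) ^ (1 / p) * (∑ i ∈ s, w i * b i ^ q) ^ (1 / q) := by
  have hp := hpq.pos
  have hq := hpq.symm.pos
  have h := Real.inner_le_Lp_mul_Lq_of_nonneg s (f := fun i => w i ^ (1 / p) * a i)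
    (g := fun i => w i ^ (1 / q) * b i) hpq
    (fun i hi => mul_nonneg (Real.rpow_nonneg (hw i hi) _) (ha i hi))
    (fun i hi => mul_nonneg (Real.rpow_nonneg (hw i hi) _) (hb i hi))
  have e1 : ∀ i ∈ s, w i ^ (1 / p) * a i * (w i ^ (1 / q) * b i) = w i * (a i * b i) := by
    intro i hi
    have e2 : w i ^ (1 / p) * w i ^ (1 / q) = w i := by
      have e3 : 1 / p + 1 / q = 1 := by
        rw [one_div, one_div]
        exact hpq.inv_add_inv_eq_one
      rw [← Real.rpow_add_of_nonneg (hw i hi) (by positivity) (by positivity), e3, Real.rpow_one]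
    calc w i ^ (1 / p) * a i * (w i ^ (1 / q) * b i) = w i ^ (1 / p) * w i ^ (1 / q) *
        (a i * b i) := by ring
      _ = _ := by rw [e2]
  have e4 : ∀ i ∈ s, (w i ^ (1 / p) * a i) ^ p = w i * a i ^ p := by
    intro i hi
    rw [Real.mul_rpow (Real.rpow_nonneg (hw i hi) _) (ha i hi), ← Real.rpow_mul (hw i hi),
      one_div_mul_cancel hp.ne', Real.rpow_one]
  have e5 : ∀ i ∈ s, (w i ^ (1 / q) * b i) ^ q = w i * b i ^ q := by
    intro i hi
    rw [Real.mul_rpow (Real.rpow_nonneg (hw i hi) _) (hb i hi), ← Real.rpow_mul (hw i hi),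
      one_div_mul_cancel hq.ne', Real.rpow_one]
  rw [sum_congr rfl e1, sum_congr rfl e4, sum_congr rfl e5] at h
  exact h

/-- the tangent inequality of `x ^ p` -/
theorem rpow_step {x y p : ℝ} (hp : 1 ≤ p) (hy : 0 ≤ y) (hyx : y ≤ x) :
    x ^ p - y ^ p ≤ p * ((x - y) * x ^ (p - 1)) := by
  have hx : 0 ≤ x := hy.trans hyx
  rcases hx.eq_or_lt with h0 | h0
  · have hy0 : y = 0 := le_antisymm (hyx.trans h0.symm.le) hy
    rw [← h0, hy0]
    simp
  · have h1 := one_add_mul_self_le_rpow_one_add (s := y / x - 1) (by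
      have : 0 ≤ y / x := by positivity
      linarith) hp
    have e1 : 1 + (y / x - 1) = y / x := by ring
    rw [e1, Real.div_rpow hy hx] at h1
    have hxp : 0 < x ^ p := Real.rpow_pos_of_pos h0 p
    have h2 : (1 + p * (y / x - 1)) * x ^ p ≤ y ^ p := by
      calc (1 + p * (y / x - 1)) * x ^ p ≤ y ^ p / x ^ p * x ^ p :=
            mul_le_mul_of_nonneg_right h1 hxp.le
        _ = y ^ p := by field_simp
    have e2 : x ^ p = x ^ (p - 1) * x := by
      rw [← Real.rpow_add_one h0.ne', sub_add_cancel]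
    have e3 : (1 + p * (y / x - 1)) * x ^ p = x ^ p - p * ((x - y) * x ^ (p - 1)) := by
      rw [e2]
      field_simp
      ring
    rw [e3] at h2
    linarith

/-- from `A ≤ c G^(1/p) A^(1/q)` to `A ≤ c^p G` -/
theorem pow_of_self {A G c p q : ℝ} (hpq : p.HolderConjugate q) (hA : 0 ≤ A) (hG : 0 ≤ G)
    (hc : 0 ≤ c) (h : A ≤ c * (G ^ (1 / p) * A ^ (1 / q))) : A ≤ c ^ p * G := by
  have hp := hpq.pos
  rcases hA.eq_or_lt with h0 | h0
  · rw [← h0]
    exact mul_nonneg (Real.rpow_nonneg hc _) hG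
  · have e3 : 1 / p + 1 / q = 1 := by
      rw [one_div, one_div]
      exact hpq.inv_add_inv_eq_one
    have e1 : A = A ^ (1 / p) * A ^ (1 / q) := by
      rw [← Real.rpow_add h0, e3, Real.rpow_one]
    have hAq : 0 < A ^ (1 / q) := Real.rpow_pos_of_pos h0 _
    have h1 : A ^ (1 / p) ≤ c * G ^ (1 / p) := by
      have h2 : A ^ (1 / p) * A ^ (1 / q) ≤ c * G ^ (1 / p) * A ^ (1 / q) := by
        rw [← e1]
        calc A ≤ c * (G ^ (1 / p) * A ^ (1 / q)) := h
          _ = _ := by ring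
      exact le_of_mul_le_mul_right h2 hAq
    calc A = (A ^ (1 / p)) ^ p := by
          rw [← Real.rpow_mul hA, one_div_mul_cancel hp.ne', Real.rpow_one]
      _ ≤ (c * G ^ (1 / p)) ^ p := Real.rpow_le_rpow (Real.rpow_nonneg hA _) h1 hp.le
      _ = c ^ p * G := by
          rw [Real.mul_rpow hc (Real.rpow_nonneg hG _), ← Real.rpow_mul hG,
            one_div_mul_cancel hp.ne', Real.rpow_one]

section

variable {X : Finset α} {rel : ℕ → α → α → Prop} {W : ℕ → α → ℝ} {P : α → ℝ} {pc : ℕ → α → ℝ}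

/-- an average may be dropped against a function which is constant on its classes -/
theorem Av_drop_const (H : Nst X rel W P pc) {i : ℕ} {u G : α → ℝ}
    (hu : ∀ x ∈ X, 0 ≤ u x) (hG : ∀ x ∈ X, 0 ≤ G x)
    (hGc : ∀ x ∈ X, ∀ y ∈ X, rel i x y → G x = G y) :
    ∑ x ∈ X, P x * Av X rel W i u x * G x ≤ ∑ x ∈ X, P x * u x * G x := by
  classical
  have h1 : ∑ x ∈ X, P x * Av X rel W i u x * G x =
      ∑ y ∈ X, P y * u y * G y * ∑ x ∈ X.filter (fun x => rel i y x), W i x := by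
    have e1 : ∀ x ∈ X, P x * Av X rel W i u x * G x =
        ∑ y ∈ X, (if rel i x y then P x * (W i y * u y) * G x else 0) := by
      intro x _
      rw [← sum_filter]
      change P x * (∑ y ∈ X.filter (fun y => rel i x y), W i y * u y) * G x = _
      rw [mul_sum, sum_mul]
    have e2 : ∀ y ∈ X, P y * u y * G y * ∑ x ∈ X.filter (fun x => rel i y x), W i x =
        ∑ x ∈ X, (if rel i y x then P y * u y * G y * W i x else 0) := by
      intro y _
      rw [← sum_filter, mul_sum]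
    rw [sum_congr rfl e1, sum_congr rfl e2, sum_comm]
    refine sum_congr rfl fun y hy => sum_congr rfl fun x hx => ?_
    by_cases h : rel i x y
    · have h' := H.symm i x hx y hy h
      rw [if_pos h, if_pos h', hGc x hx y hy h, H.P_eq i x hx, H.P_eq i y hy,
        H.pc_eq i x hx y hy h]
      ring
    · have h' : ¬ rel i y x := fun h' => h (H.symm i y hy x hx h')
      rw [if_neg h, if_neg h']
  rw [h1]
  refine sum_le_sum fun y hy => ?_
  have h2 : 0 ≤ P y * u y * G y :=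
    mul_nonneg (mul_nonneg (H.P_nonneg y hy) (hu y hy)) (hG y hy)
  calc P y * u y * G y * ∑ x ∈ X.filter (fun x => rel i y x), W i x ≤
        P y * u y * G y * 1 := mul_le_mul_of_nonneg_left (H.sum_le i y hy) h2
    _ = _ := mul_one _

/-- the tails of the sum of the averages of the functions `u i` -/
noncomputable def Sl (X : Finset α) (rel : ℕ → α → α → Prop) (W : ℕ → α → ℝ)
    (u : ℕ → α → ℝ) (n l : ℕ) (x : α) : ℝ := ∑ i ∈ Ico l n, Av X rel W i (u i) x

theorem Sl_nonneg (H : Nst X rel W P pc) {u : ℕ → α → ℝ} (hu : ∀ i, ∀ x ∈ X, 0 ≤ u i x)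
    (n l : ℕ) (x : α) : 0 ≤ Sl X rel W u n l x :=
  sum_nonneg fun i _ => Av_nonneg H (hu i) x

theorem Sl_const (H : Nst X rel W P pc) {u : ℕ → α → ℝ} (n l : ℕ) {x y : α}
    (hx : x ∈ X) (hy : y ∈ X) (h : rel l x y) : Sl X rel W u n l x = Sl X rel W u n l y := by
  unfold Sl
  exact sum_congr rfl fun i hi => Av_congr H (mem_Ico.1 hi).1 hx hy h

theorem Sl_top (u : ℕ → α → ℝ) (n : ℕ) (x : α) : Sl X rel W u n n x = 0 := by
  unfold Sl
  rw [Ico_self, sum_empty]

theorem Sl_succ (u : ℕ → α → ℝ) {n l : ℕ} (h : l < n) (x : α) :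
    Sl X rel W u n l x = Av X rel W l (u l) x + Sl X rel W u n (l + 1) x := by
  unfold Sl
  rw [sum_eq_sum_Ico_succ_bot h]

/-- **Garsia - Neveu**: if the functions `u i`, `i ≤ l`, are dominated together by `κ g` against
all the functions which are constant on the classes of index `l`, then the sum `T` of their
averages satisfies `|T|_p ≤ p κ |g|_p`. -/
theorem garsia (H : Nst X rel W P pc) {u : ℕ → α → ℝ} (hu : ∀ i, ∀ x ∈ X, 0 ≤ u i x) {n : ℕ}
    {p q κ : ℝ} (hpq : p.HolderConjugate q) (hκ : 0 ≤ κ) {g : α → ℝ} (hg : ∀ x ∈ X, 0 ≤ g x)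
    (hD : ∀ l < n, ∀ D : α → ℝ, (∀ x ∈ X, 0 ≤ D x) →
      (∀ x ∈ X, ∀ y ∈ X, rel l x y → D x = D y) →
      ∑ i ∈ range (l + 1), ∑ x ∈ X, P x * u i x * D x ≤ κ * ∑ x ∈ X, P x * g x * D x) :
    ∑ x ∈ X, P x * Sl X rel W u n 0 x ^ p ≤ (p * κ) ^ p * ∑ x ∈ X, P x * g x ^ p := by
  classical
  have hp1 : 1 < p := hpq.lt
  have hp0 : 0 < p := by linarith
  set S : ℕ → α → ℝ := fun l x => Sl X rel W u n l x with hS
  have hS0 : ∀ l x, 0 ≤ S l x := fun l x => Sl_nonneg H hu n l x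
  have hSn : ∀ x, S n x = 0 := fun x => Sl_top u n x
  have hSs : ∀ l < n, ∀ x, S l x = Av X rel W l (u l) x + S (l + 1) x := fun l hl x => Sl_succ u hl x
  have hSm : ∀ l < n, ∀ x, S (l + 1) x ≤ S l x := by
    intro l hl x
    rw [hSs l hl x]
    have := Av_nonneg H (i := l) (hu l) x
    linarith
  -- step 1
  have h1 : ∀ x ∈ X, S 0 x ^ p ≤ p * ∑ i ∈ range n, Av X rel W i (u i) x * S i x ^ (p - 1) := by
    intro x _
    have e1 : ∑ i ∈ range n, (S i x ^ p - S (i + 1) x ^ p) = S 0 x ^ p - S n x ^ p :=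
      sum_range_sub' (fun i => S i x ^ p) n
    rw [hSn, Real.zero_rpow hp0.ne', sub_zero] at e1
    rw [← e1, mul_sum]
    refine sum_le_sum fun i hi => ?_
    have h2 := rpow_step hp1.le (hS0 (i + 1) x) (hSm i (mem_range.1 hi) x)
    have e2 : S i x - S (i + 1) x = Av X rel W i (u i) x := by
      rw [hSs i (mem_range.1 hi) x]
      ring
    rwa [e2] at h2
  have h2 : ∑ x ∈ X, P x * S 0 x ^ p ≤
      p * ∑ i ∈ range n, ∑ x ∈ X, P x * Av X rel W i (u i) x * S i x ^ (p - 1) := by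
    calc ∑ x ∈ X, P x * S 0 x ^ p ≤ ∑ x ∈ X, P x * (p * ∑ i ∈ range n,
          Av X rel W i (u i) x * S i x ^ (p - 1)) :=
          sum_le_sum fun x hx => mul_le_mul_of_nonneg_left (h1 x hx) (H.P_nonneg x hx)
      _ = _ := by
          rw [sum_comm (s := range n), mul_sum]
          refine sum_congr rfl fun x _ => ?_
          rw [mul_sum, mul_sum, mul_sum]
          exact sum_congr rfl fun i _ => by ring
  -- step 2
  have h3 : ∑ i ∈ range n, ∑ x ∈ X, P x * Av X rel W i (u i) x * S i x ^ (p - 1) ≤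
      ∑ i ∈ range n, ∑ x ∈ X, P x * u i x * S i x ^ (p - 1) := by
    refine sum_le_sum fun i _ => ?_
    exact Av_drop_const H (hu i) (fun x _ => Real.rpow_nonneg (hS0 i x) _)
      (fun x hx y hy hxy => by
        have e1 : S i x = S i y := Sl_const H n i hx hy hxy
        simp only [e1])
  -- step 3
  set D : ℕ → α → ℝ := fun l x => S l x ^ (p - 1) - S (l + 1) x ^ (p - 1) with hDdef
  have hp1' : 0 < p - 1 := by linarith
  have hD0 : ∀ l < n, ∀ x ∈ X, 0 ≤ D l x := by
    intro l hl x _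
    have := Real.rpow_le_rpow (hS0 (l + 1) x) (hSm l hl x) hp1'.le
    simp only [hDdef]
    linarith
  have hDc : ∀ l < n, ∀ x ∈ X, ∀ y ∈ X, rel l x y → D l x = D l y := by
    intro l _ x hx y hy hxy
    simp only [hDdef, hS]
    rw [Sl_const H n l hx hy hxy, Sl_const H n (l + 1) hx hy (H.mono (l + 1) l (by omega) x hx y hy hxy)]
  have h4 : ∑ i ∈ range n, ∑ x ∈ X, P x * u i x * S i x ^ (p - 1) =
      ∑ l ∈ range n, ∑ i ∈ range (l + 1), ∑ x ∈ X, P x * u i x * D l x := by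
    have e1 : ∀ i ∈ range n, ∑ x ∈ X, P x * u i x * S i x ^ (p - 1) =
        ∑ l ∈ range n, if i ≤ l then ∑ x ∈ X, P x * u i x * D l x else 0 := by
      intro i hi
      have hi' := mem_range.1 hi
      have e2 : ∀ x ∈ X, S i x ^ (p - 1) = ∑ l ∈ range n, if i ≤ l then D l x else 0 := by
        intro x _
        rw [← sum_filter]
        have e3 : (range n).filter (fun l => i ≤ l) = Ico i n := by
          ext l
          rw [mem_filter, mem_range, mem_Ico]
          tauto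
        rw [e3]
        have e4 : ∀ m, i ≤ m → m ≤ n → ∑ l ∈ Ico i m, D l x = S i x ^ (p - 1) - S m x ^ (p - 1) := by
          intro m hm
          induction m, hm using Nat.le_induction with
          | base => intro _; rw [Ico_self, sum_empty, sub_self]
          | succ m hm ih =>
            intro hmn
            rw [sum_Ico_succ_top hm, ih (by omega)]
            simp only [hDdef]
            ring
        rw [e4 n hi'.le le_rfl, hSn, Real.zero_rpow hp1'.ne', sub_zero]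
      have e5 : ∑ x ∈ X, P x * u i x * S i x ^ (p - 1) =
          ∑ x ∈ X, ∑ l ∈ range n, if i ≤ l then P x * u i x * D l x else 0 := by
        refine sum_congr rfl fun x hx => ?_
        rw [e2 x hx, mul_sum]
        refine sum_congr rfl fun l _ => ?_
        split_ifs
        · rfl
        · rw [mul_zero]
      rw [e5, sum_comm]
      refine sum_congr rfl fun l _ => ?_
      split_ifs
      · rfl
      · exact sum_const_zero
    rw [sum_congr rfl e1, sum_comm]
    refine sum_congr rfl fun l hl => ?_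
    have hl' := mem_range.1 hl
    rw [← sum_filter]
    refine sum_congr ?_ fun _ _ => rfl
    ext i
    rw [mem_filter, mem_range, mem_range]
    omega
  have h5 : ∑ l ∈ range n, ∑ i ∈ range (l + 1), ∑ x ∈ X, P x * u i x * D l x ≤
      κ * ∑ x ∈ X, P x * (g x * S 0 x ^ (p - 1)) := by
    calc ∑ l ∈ range n, ∑ i ∈ range (l + 1), ∑ x ∈ X, P x * u i x * D l x ≤
          ∑ l ∈ range n, κ * ∑ x ∈ X, P x * g x * D l x :=
          sum_le_sum fun l hl => hD l (mem_range.1 hl) (D l) (hD0 l (mem_range.1 hl))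
            (hDc l (mem_range.1 hl))
      _ = _ := by
          rw [← mul_sum, sum_comm]
          congr 1
          refine sum_congr rfl fun x _ => ?_
          rw [← mul_sum]
          have e1 : ∑ l ∈ range n, D l x = S 0 x ^ (p - 1) - S n x ^ (p - 1) :=
            sum_range_sub' (fun i => S i x ^ (p - 1)) n
          rw [e1, hSn, Real.zero_rpow hp1'.ne', sub_zero]
          ring
  -- step 4
  have h6 := wholder X hpq (w := P) (a := g) (b := fun x => S 0 x ^ (p - 1)) H.P_nonneg hg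
    (fun x _ => Real.rpow_nonneg (hS0 0 x) _)
  have e7 : ∑ x ∈ X, P x * (S 0 x ^ (p - 1)) ^ q = ∑ x ∈ X, P x * S 0 x ^ p := by
    refine sum_congr rfl fun x _ => ?_
    rw [← Real.rpow_mul (hS0 0 x), hpq.sub_one_mul_conj]
  rw [e7] at h6
  have hA : 0 ≤ ∑ x ∈ X, P x * S 0 x ^ p :=
    sum_nonneg fun x hx => mul_nonneg (H.P_nonneg x hx) (Real.rpow_nonneg (hS0 0 x) _)
  have hG : 0 ≤ ∑ x ∈ X, P x * g x ^ p :=
    sum_nonneg fun x hx => mul_nonneg (H.P_nonneg x hx) (Real.rpow_nonneg (hg x hx) _)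
  refine pow_of_self hpq hA hG (by positivity) ?_
  calc ∑ x ∈ X, P x * S 0 x ^ p ≤ p * (κ * ∑ x ∈ X, P x * (g x * S 0 x ^ (p - 1))) := by
        refine h2.trans (mul_le_mul_of_nonneg_left ?_ hp0.le)
        exact h3.trans (h4.le.trans h5)
    _ ≤ p * (κ * ((∑ x ∈ X, P x * g x ^ p) ^ (1 / p) *
          (∑ x ∈ X, P x * S 0 x ^ p) ^ (1 / q))) :=
        mul_le_mul_of_nonneg_left (mul_le_mul_of_nonneg_left h6 hκ) hp0.le
    _ = _ := by ring

/-! ### Leaks and patterns -/

open Classical in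
/-- The images of a family `S`: adoption index `c`, natural weight `pr x` of the element `x`,
images `im x t`, `t ∈ T`, with the weights `L i x t` at the index `i`, weights `μ` for the Hölder
inequality. -/
structure LkP (X : Finset α) (rel : ℕ → α → α → Prop) (P : α → ℝ) (S : Finset β) (T : Finset τ)
    (c : β → ℕ) (pr : β → ℝ) (im : β → τ → α) (L : ℕ → β → τ → ℝ) (μ : β → τ → ℝ)
    (p κm κ K0 : ℝ) : Prop where
  L_nonneg : ∀ i, ∀ x ∈ S, ∀ t ∈ T, 0 ≤ L i x t
  μ_pos : ∀ x ∈ S, ∀ t ∈ T, 0 < μ x t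
  mem : ∀ x ∈ S, ∀ t ∈ T, L (c x) x t ≠ 0 → im x t ∈ X
  mono : ∀ x ∈ S, ∀ i, c x ≤ i → ∀ t ∈ T, L i x t ≤ L (c x) x t
  mass : ∀ x ∈ S, ∑ t ∈ T, L (c x) x t * μ x t ^ (-(p - 1)) * P (im x t) ≤ κm * pr x
  out : ∀ x ∈ S, ∀ i, c x ≤ i → ∀ D : α → ℝ, (∀ y ∈ X, 0 ≤ D y) →
    (∀ y ∈ X, ∀ z ∈ X, rel i y z → D y = D z) →
    ∑ t ∈ T, L (c x) x t * (P (im x t) * D (im x t)) ≤
      κ * ∑ t ∈ T, L i x t * (P (im x t) * D (im x t))
  col : ∀ i, ∀ y ∈ X, ∑ e ∈ ((S.filter (fun x => c x ≤ i)) ×ˢ T).filter (fun e => im e.1 e.2 = y),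
    L i e.1 e.2 * μ e.1 e.2 ≤ K0

open Classical in
/-- the new elements at the index `i`, pushed to their images -/
noncomputable def uP (S : Finset β) (T : Finset τ) (c : β → ℕ) (im : β → τ → α)
    (L : ℕ → β → τ → ℝ) (ξ : β → ℝ) (i : ℕ) (y : α) : ℝ :=
  ∑ e ∈ ((S.filter (fun x => c x = i)) ×ˢ T).filter (fun e => im e.1 e.2 = y),
    ξ e.1 * L i e.1 e.2

open Classical in
/-- the elements present at the index `i`, pushed to their images -/
noncomputable def vP (S : Finset β) (T : Finset τ) (c : β → ℕ) (im : β → τ → α)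
    (L : ℕ → β → τ → ℝ) (ξ : β → ℝ) (i : ℕ) (y : α) : ℝ :=
  ∑ e ∈ ((S.filter (fun x => c x ≤ i)) ×ˢ T).filter (fun e => im e.1 e.2 = y),
    ξ e.1 * L i e.1 e.2

open Classical in
/-- the majorant of all the `vP i` -/
noncomputable def gP (S : Finset β) (T : Finset τ) (c : β → ℕ) (im : β → τ → α)
    (L : ℕ → β → τ → ℝ) (μ : β → τ → ℝ) (p K0 : ℝ) (ξ : β → ℝ) (y : α) : ℝ :=
  (K0 ^ (p - 1) * ∑ e ∈ (S ×ˢ T).filter (fun e => im e.1 e.2 = y),
    ξ e.1 ^ p * (L (c e.1) e.1 e.2 * μ e.1 e.2 ^ (-(p - 1)))) ^ (1 / p)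

variable {S : Finset β} {T : Finset τ} {c : β → ℕ} {pr : β → ℝ} {im : β → τ → α}
  {L : ℕ → β → τ → ℝ} {μ : β → τ → ℝ} {p q κm κ K0 : ℝ} {ξ : β → ℝ}

theorem uP_nonneg (H : LkP X rel P S T c pr im L μ p κm κ K0) (hξ : ∀ x ∈ S, 0 ≤ ξ x) (i : ℕ)
    (y : α) : 0 ≤ uP S T c im L ξ i y := by
  classical
  refine sum_nonneg fun e he => ?_
  have h1 := mem_product.1 (mem_filter.1 he).1
  have h2 := (mem_filter.1 h1.1).1
  exact mul_nonneg (hξ _ h2) (H.L_nonneg i _ h2 _ h1.2)

theorem vP_nonneg (H : LkP X rel P S T c pr im L μ p κm κ K0) (hξ : ∀ x ∈ S, 0 ≤ ξ x) (i : ℕ)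
    (y : α) : 0 ≤ vP S T c im L ξ i y := by
  classical
  refine sum_nonneg fun e he => ?_
  have h1 := mem_product.1 (mem_filter.1 he).1
  have h2 := (mem_filter.1 h1.1).1
  exact mul_nonneg (hξ _ h2) (H.L_nonneg i _ h2 _ h1.2)

open Classical in
theorem gP_base_nonneg (H : LkP X rel P S T c pr im L μ p κm κ K0) (hK : 0 ≤ K0)
    (hξ : ∀ x ∈ S, 0 ≤ ξ x) (y : α) :
    0 ≤ K0 ^ (p - 1) * ∑ e ∈ (S ×ˢ T).filter (fun e => im e.1 e.2 = y),
      ξ e.1 ^ p * (L (c e.1) e.1 e.2 * μ e.1 e.2 ^ (-(p - 1))) := by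
  classical
  refine mul_nonneg (Real.rpow_nonneg hK _) (sum_nonneg fun e he => ?_)
  have h1 := mem_product.1 (mem_filter.1 he).1
  exact mul_nonneg (Real.rpow_nonneg (hξ _ h1.1) _) (mul_nonneg (H.L_nonneg _ _ h1.1 _ h1.2)
    (Real.rpow_nonneg (H.μ_pos _ h1.1 _ h1.2).le _))

theorem gP_nonneg (H : LkP X rel P S T c pr im L μ p κm κ K0) (hK : 0 ≤ K0)
    (hξ : ∀ x ∈ S, 0 ≤ ξ x) (y : α) : 0 ≤ gP S T c im L μ p K0 ξ y :=
  Real.rpow_nonneg (gP_base_nonneg H hK hξ y) _

/-- one majorant for all the indices: a maximum over the chain instead of a sum -/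
theorem vP_le (H : LkP X rel P S T c pr im L μ p κm κ K0) (hpq : p.HolderConjugate q)
    (hK : 0 ≤ K0) (hξ : ∀ x ∈ S, 0 ≤ ξ x) (i : ℕ) {y : α} (hy : y ∈ X) :
    vP S T c im L ξ i y ≤ gP S T c im L μ p K0 ξ y := by
  classical
  have hp0 := hpq.pos
  have hq0 := hpq.symm.pos
  set E := ((S.filter (fun x => c x ≤ i)) ×ˢ T).filter (fun e : β × τ => im e.1 e.2 = y) with hE
  have hES : ∀ e ∈ E, e.1 ∈ S ∧ e.2 ∈ T ∧ c e.1 ≤ i ∧ im e.1 e.2 = y := by
    intro e he
    rw [hE, mem_filter, mem_product, mem_filter] at he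
    exact ⟨he.1.1.1, he.1.2, he.1.1.2, he.2⟩
  have hL : ∀ e ∈ E, 0 ≤ L i e.1 e.2 := fun e he =>
    H.L_nonneg i _ (hES e he).1 _ (hES e he).2.1
  have hμ : ∀ e ∈ E, 0 < μ e.1 e.2 := fun e he => H.μ_pos _ (hES e he).1 _ (hES e he).2.1
  have h1 := wholder E hpq (w := fun e => L i e.1 e.2)
    (a := fun e => ξ e.1 * μ e.1 e.2 ^ (-(1 / q))) (b := fun e => μ e.1 e.2 ^ (1 / q)) hL
    (fun e he => mul_nonneg (hξ _ (hES e he).1) (Real.rpow_nonneg (hμ e he).le _))
    (fun e he => Real.rpow_nonneg (hμ e he).le _)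
  have e1 : ∑ e ∈ E, L i e.1 e.2 * (ξ e.1 * μ e.1 e.2 ^ (-(1 / q)) * μ e.1 e.2 ^ (1 / q)) =
      vP S T c im L ξ i y := by
    unfold vP
    refine sum_congr (by rw [hE]) fun e he => ?_
    have he' : e ∈ E := by rw [hE]; exact he
    rw [mul_assoc (ξ e.1), ← Real.rpow_add (hμ e he'), neg_add_cancel, Real.rpow_zero]
    ring
  have e2 : ∀ e ∈ E, L i e.1 e.2 * (μ e.1 e.2 ^ (1 / q)) ^ q = L i e.1 e.2 * μ e.1 e.2 := by
    intro e he
    rw [← Real.rpow_mul (hμ e he).le, one_div_mul_cancel hq0.ne', Real.rpow_one]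
  have e3 : ∀ e ∈ E, L i e.1 e.2 * (ξ e.1 * μ e.1 e.2 ^ (-(1 / q))) ^ p =
      ξ e.1 ^ p * (L i e.1 e.2 * μ e.1 e.2 ^ (-(p - 1))) := by
    intro e he
    rw [Real.mul_rpow (hξ _ (hES e he).1) (Real.rpow_nonneg (hμ e he).le _),
      ← Real.rpow_mul (hμ e he).le]
    have e4 : -(1 / q) * p = -(p - 1) := by
      have h2 : (p - 1) * q = p := hpq.sub_one_mul_conj
      field_simp
      linarith
    rw [e4]
    ring
  rw [e1, sum_congr rfl e2, sum_congr rfl e3] at h1
  refine h1.trans ?_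
  have hcol : ∑ e ∈ E, L i e.1 e.2 * μ e.1 e.2 ≤ K0 := by
    refine le_trans (le_of_eq ?_) (H.col i y hy)
    refine sum_congr ?_ fun _ _ => rfl
    rw [hE]
  have h2 : (∑ e ∈ E, L i e.1 e.2 * μ e.1 e.2) ^ (1 / q) ≤ K0 ^ (1 / q) :=
    Real.rpow_le_rpow (sum_nonneg fun e he => mul_nonneg (hL e he) (hμ e he).le) hcol
      (by positivity)
  have h3 : ∑ e ∈ E, ξ e.1 ^ p * (L i e.1 e.2 * μ e.1 e.2 ^ (-(p - 1))) ≤
      ∑ e ∈ (S ×ˢ T).filter (fun e => im e.1 e.2 = y),
        ξ e.1 ^ p * (L (c e.1) e.1 e.2 * μ e.1 e.2 ^ (-(p - 1))) := by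
    refine (sum_le_sum fun e he => ?_).trans (sum_le_sum_of_subset_of_nonneg
      (s := E) (fun e he => ?_) fun e he _ => ?_)
    · have h4 := hES e he
      exact mul_le_mul_of_nonneg_left (mul_le_mul_of_nonneg_right (H.mono _ h4.1 i h4.2.2.1 _ h4.2.1)
        (Real.rpow_nonneg (hμ e he).le _)) (Real.rpow_nonneg (hξ _ h4.1) _)
    · have h4 := hES e he
      exact mem_filter.2 ⟨mem_product.2 ⟨h4.1, h4.2.1⟩, h4.2.2.2⟩
    · have h1 := mem_product.1 (mem_filter.1 he).1
      exact mul_nonneg (Real.rpow_nonneg (hξ _ h1.1) _) (mul_nonneg (H.L_nonneg _ _ h1.1 _ h1.2)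
        (Real.rpow_nonneg (H.μ_pos _ h1.1 _ h1.2).le _))
  have h3' : 0 ≤ ∑ e ∈ E, ξ e.1 ^ p * (L i e.1 e.2 * μ e.1 e.2 ^ (-(p - 1))) :=
    sum_nonneg fun e he => mul_nonneg (Real.rpow_nonneg (hξ _ (hES e he).1) _)
      (mul_nonneg (hL e he) (Real.rpow_nonneg (hμ e he).le _))
  unfold gP
  have e5 : K0 ^ (1 / q) = (K0 ^ (p - 1)) ^ (1 / p) := by
    rw [← Real.rpow_mul hK]
    congr 1
    have h2 : (p - 1) * q = p := hpq.sub_one_mul_conj
    field_simp
    linarith
  rw [Real.mul_rpow (Real.rpow_nonneg hK _) (h3'.trans h3), ← e5, mul_comm]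
  exact mul_le_mul h2 (Real.rpow_le_rpow h3' h3 (by positivity)) (Real.rpow_nonneg h3' _)
    (Real.rpow_nonneg hK _)

open Classical in
/-- a sum over the words of a function of the images -/
theorem sum_im {E : Finset (β × τ)} {a : β × τ → ℝ} {G : α → ℝ}
    (hE : ∀ e ∈ E, a e ≠ 0 → im e.1 e.2 ∈ X) :
    ∑ y ∈ X, (∑ e ∈ E.filter (fun e => im e.1 e.2 = y), a e) * G y =
      ∑ e ∈ E, a e * G (im e.1 e.2) := by
  have e1 : ∀ y ∈ X, (∑ e ∈ E.filter (fun e => im e.1 e.2 = y), a e) * G y =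
      ∑ e ∈ E, if im e.1 e.2 = y then a e * G (im e.1 e.2) else 0 := by
    intro y _
    rw [sum_mul, sum_filter]
    refine sum_congr rfl fun e _ => ?_
    split_ifs with h
    · rw [h]
    · rfl
  rw [sum_congr rfl e1, sum_comm]
  refine sum_congr rfl fun e he => ?_
  rw [sum_ite_eq]
  split_ifs with h
  · rfl
  · have : a e = 0 := by
      by_contra h2
      exact h (hE e he h2)
    rw [this, zero_mul]

/-- the norm of the majorant -/
theorem gP_norm (H : LkP X rel P S T c pr im L μ p κm κ K0) (hp : 1 < p) (hK : 0 ≤ K0)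
    (hξ : ∀ x ∈ S, 0 ≤ ξ x) :
    ∑ y ∈ X, P y * gP S T c im L μ p K0 ξ y ^ p ≤
      K0 ^ (p - 1) * κm * ∑ x ∈ S, pr x * ξ x ^ p := by
  classical
  have hp0 : 0 < p := by linarith
  have e1 : ∀ y ∈ X, P y * gP S T c im L μ p K0 ξ y ^ p = K0 ^ (p - 1) *
      ((∑ e ∈ (S ×ˢ T).filter (fun e => im e.1 e.2 = y),
        ξ e.1 ^ p * (L (c e.1) e.1 e.2 * μ e.1 e.2 ^ (-(p - 1)))) * P y) := by
    intro y _
    unfold gP
    rw [← Real.rpow_mul (gP_base_nonneg H hK hξ y), one_div_mul_cancel hp0.ne', Real.rpow_one]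
    ring
  rw [sum_congr rfl e1, ← mul_sum, sum_im (im := im) (a := fun e =>
    ξ e.1 ^ p * (L (c e.1) e.1 e.2 * μ e.1 e.2 ^ (-(p - 1)))), mul_assoc]
  · refine mul_le_mul_of_nonneg_left ?_ (Real.rpow_nonneg hK _)
    rw [sum_product, mul_sum]
    refine sum_le_sum fun x hx => ?_
    have e2 : ∑ t ∈ T, ξ x ^ p * (L (c x) x t * μ x t ^ (-(p - 1))) * P (im x t) =
        ξ x ^ p * ∑ t ∈ T, L (c x) x t * μ x t ^ (-(p - 1)) * P (im x t) := by
      rw [mul_sum]
      exact sum_congr rfl fun t _ => by ring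
    rw [e2]
    calc ξ x ^ p * ∑ t ∈ T, L (c x) x t * μ x t ^ (-(p - 1)) * P (im x t) ≤
          ξ x ^ p * (κm * pr x) :=
          mul_le_mul_of_nonneg_left (H.mass x hx) (Real.rpow_nonneg (hξ x hx) _)
      _ = _ := by ring
  · intro e he hne
    have h1 := mem_product.1 he
    refine H.mem _ h1.1 _ h1.2 fun h0 => hne ?_
    rw [h0]
    ring

/-- **The norm of the sum over the adoption times of the averages of the new elements.** -/
theorem TP_norm (HN : Nst X rel W P pc) (H : LkP X rel P S T c pr im L μ p κm κ K0)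
    (hpq : p.HolderConjugate q) (hκ : 0 ≤ κ) (hK : 0 ≤ K0) (hξ : ∀ x ∈ S, 0 ≤ ξ x) (n : ℕ) :
    ∑ y ∈ X, P y * Sl X rel W (uP S T c im L ξ) n 0 y ^ p ≤
      (p * κ) ^ p * (K0 ^ (p - 1) * κm * ∑ x ∈ S, pr x * ξ x ^ p) := by
  classical
  have hp0 := hpq.pos
  refine (garsia HN (fun i x _ => uP_nonneg H hξ i x) hpq hκ
    (g := gP S T c im L μ p K0 ξ) (fun x _ => gP_nonneg H hK hξ x) ?_).trans
    (mul_le_mul_of_nonneg_left (gP_norm H hpq.lt hK hξ) (by positivity))
  intro l _ D hD0 hDc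
  -- the left side
  have hLmem : ∀ i, ∀ x ∈ S, c x ≤ i → ∀ t ∈ T, L i x t ≠ 0 → im x t ∈ X := by
    intro i x hx hi t ht hne
    refine H.mem x hx t ht fun h0 => hne ?_
    exact le_antisymm (h0 ▸ H.mono x hx i hi t ht) (H.L_nonneg i x hx t ht)
  have e1 : ∀ i ∈ range (l + 1), ∑ y ∈ X, P y * uP S T c im L ξ i y * D y =
      ∑ x ∈ S.filter (fun x => c x = i), ξ x * ∑ t ∈ T, L (c x) x t * (P (im x t) * D (im x t)) := by
    intro i _
    have e2 : ∀ y ∈ X, P y * uP S T c im L ξ i y * D y =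
        (∑ e ∈ ((S.filter (fun x => c x = i)) ×ˢ T).filter (fun e => im e.1 e.2 = y),
          ξ e.1 * L i e.1 e.2) * (P y * D y) := by
      intro y _
      unfold uP
      ring
    rw [sum_congr rfl e2, sum_im (im := im) (G := fun y => P y * D y)
      (a := fun e => ξ e.1 * L i e.1 e.2)]
    · rw [sum_product]
      refine sum_congr rfl fun x hx => ?_
      rw [mul_sum]
      refine sum_congr rfl fun t _ => ?_
      rw [(mem_filter.1 hx).2]
      ring
    · intro e he hne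
      have h1 := mem_product.1 he
      have h2 := mem_filter.1 h1.1
      exact hLmem i _ h2.1 h2.2.le _ h1.2 fun h0 => hne (by simp only [h0]; ring)
  have e3 : ∑ y ∈ X, P y * vP S T c im L ξ l y * D y =
      ∑ x ∈ S.filter (fun x => c x ≤ l), ξ x * ∑ t ∈ T, L l x t * (P (im x t) * D (im x t)) := by
    have e2 : ∀ y ∈ X, P y * vP S T c im L ξ l y * D y =
        (∑ e ∈ ((S.filter (fun x => c x ≤ l)) ×ˢ T).filter (fun e => im e.1 e.2 = y),
          ξ e.1 * L l e.1 e.2) * (P y * D y) := by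
      intro y _
      unfold vP
      ring
    rw [sum_congr rfl e2, sum_im (im := im) (G := fun y => P y * D y)
      (a := fun e => ξ e.1 * L l e.1 e.2)]
    · rw [sum_product]
      refine sum_congr rfl fun x _ => ?_
      rw [mul_sum]
      refine sum_congr rfl fun t _ => ?_
      ring
    · intro e he hne
      have h1 := mem_product.1 he
      have h2 := mem_filter.1 h1.1
      exact hLmem l _ h2.1 h2.2 _ h1.2 fun h0 => hne (by simp only [h0]; ring)
  rw [sum_congr rfl e1]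
  calc ∑ i ∈ range (l + 1), ∑ x ∈ S.filter (fun x => c x = i),
        ξ x * ∑ t ∈ T, L (c x) x t * (P (im x t) * D (im x t)) =
        ∑ x ∈ S.filter (fun x => c x ≤ l),
          ξ x * ∑ t ∈ T, L (c x) x t * (P (im x t) * D (im x t)) := by
        simp only [sum_filter]
        rw [sum_comm]
        refine sum_congr rfl fun x _ => ?_
        by_cases hxl : c x ≤ l
        · rw [if_pos hxl, sum_ite_eq, if_pos (mem_range.2 (by omega))]
        · rw [if_neg hxl]
          refine sum_eq_zero fun i hi => if_neg fun h => hxl ?_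
          have := mem_range.1 hi
          omega
    _ ≤ ∑ x ∈ S.filter (fun x => c x ≤ l),
          ξ x * (κ * ∑ t ∈ T, L l x t * (P (im x t) * D (im x t))) :=
        sum_le_sum fun x hx => mul_le_mul_of_nonneg_left
          (H.out x (mem_filter.1 hx).1 l (mem_filter.1 hx).2 D hD0 hDc) (hξ _ (mem_filter.1 hx).1)
    _ = κ * ∑ y ∈ X, P y * vP S T c im L ξ l y * D y := by
        rw [e3, mul_sum]
        exact sum_congr rfl fun x _ => by ring
    _ ≤ κ * ∑ y ∈ X, P y * gP S T c im L μ p K0 ξ y * D y := by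
        refine mul_le_mul_of_nonneg_left (sum_le_sum fun y hy => ?_) hκ
        exact mul_le_mul_of_nonneg_right (mul_le_mul_of_nonneg_left (vP_le H hpq hK hξ l hy)
          (HN.P_nonneg y hy)) (hD0 y hy)

open Classical in
/-- **The form over the adoption times**, with leaks and patterns of the new side: the old side is
any family of functions `v i` with a common majorant `h`. -/
theorem leakP_form (HN : Nst X rel W P pc) (H : LkP X rel P S T c pr im L μ p κm κ K0)
    (hpq : p.HolderConjugate q) (hκ : 0 ≤ κ) (hK : 0 ≤ K0)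
    (hξ : ∀ x ∈ S, 0 ≤ ξ x) (n : ℕ) {v : ℕ → α → ℝ} {h : α → ℝ} (hh : ∀ y ∈ X, 0 ≤ h y)
    (hv : ∀ i < n, ∀ y ∈ X, v i y ≤ h y) :
    ∑ i ∈ range n, ∑ y ∈ X, ∑ z ∈ X.filter (fun z => rel i y z),
      P y * W i z * (v i y * uP S T c im L ξ i z) ≤
      (∑ y ∈ X, P y * h y ^ q) ^ (1 / q) *
        ((p * κ) ^ p * (K0 ^ (p - 1) * κm * ∑ x ∈ S, pr x * ξ x ^ p)) ^ (1 / p) := by
  have hu : ∀ i, ∀ y ∈ X, 0 ≤ uP S T c im L ξ i y := fun i y _ => uP_nonneg H hξ i y
  have hp0 := hpq.pos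
  have h1 : ∑ i ∈ range n, ∑ y ∈ X, ∑ z ∈ X.filter (fun z => rel i y z),
      P y * W i z * (v i y * uP S T c im L ξ i z) ≤
      ∑ y ∈ X, P y * (h y * Sl X rel W (uP S T c im L ξ) n 0 y) := by
    rw [sum_comm]
    refine sum_le_sum fun y hy => ?_
    unfold Sl
    rw [mul_sum, mul_sum, range_eq_Ico]
    refine sum_le_sum fun i hi => ?_
    have e1 : ∑ z ∈ X.filter (fun z => rel i y z), P y * W i z * (v i y * uP S T c im L ξ i z) =
        P y * (v i y * Av X rel W i (uP S T c im L ξ i) y) := by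
      unfold Av
      rw [mul_sum, mul_sum]
      exact sum_congr rfl fun z _ => by ring
    rw [e1]
    exact mul_le_mul_of_nonneg_left (mul_le_mul_of_nonneg_right (hv i (mem_Ico.1 hi).2 y hy)
      (Av_nonneg HN (hu i) y)) (HN.P_nonneg y hy)
  refine h1.trans ?_
  refine (wholder X hpq.symm HN.P_nonneg hh
    (fun y _ => Sl_nonneg HN hu n 0 y)).trans ?_
  refine mul_le_mul_of_nonneg_left ?_ (Real.rpow_nonneg (sum_nonneg fun y hy =>
    mul_nonneg (HN.P_nonneg y hy) (Real.rpow_nonneg (hh y hy) _)) _)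
  exact Real.rpow_le_rpow (sum_nonneg fun y hy => mul_nonneg (HN.P_nonneg y hy)
    (Real.rpow_nonneg (Sl_nonneg HN hu n 0 y) _)) (TP_norm HN H hpq hκ hK hξ n) (by positivity)

end

end Vale.P028.Dp
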