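import Vale.Agent.P028.MathlibUsed
import Vale.Agent.P028.H734.CutDefs
attribute [-instance] ProperSMul.toContinuousSMul IsTopologicalTorsor.toContinuousSMul IdemSemiring.toCanonicallyOrderedAdd IdemSemiring.toMulLeftMono IdemSemiring.toMulRightMono AddQuantale.instAddLeftMono AddQuantale.instAddRightMono Quantale.instMulLeftMono Quantale.instMulRightMono FiniteDimensional.rclike_to_real IsScalarTower.complexToReal FiniteDimensional.complexToReal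

/-!
# The energy theorem at a cut for one pattern and one gap
-/

namespace Vale.P028.SK

open Finset CF RN

/-- **one rest pattern `(a, b)`, one gap `l`** -/
def X2P (c1 c θ C : ℝ) : Prop :=
  ∀ (g : Cfg) (x : ℕ), zs g ≤ x → 2 ≤ c1 * zs g →
  ∀ {β : Type} (S : Finset β) (nu : β → ℕ) (hl : β → ℤ) (cc : β → ℕ) (Fm : β → ℝ),
    FamX g x S nu hl Fm →
  ∀ (a b : ℕ) (l : ℤ), a.Coprime b → 0 < a → 0 < b →
  ∀ (I : Finset ℕ) (E : ℕ → β → β → ℝ), (∀ i ∈ I, x ≤ z g i) →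
    (∀ i ∈ I, ∀ e ∈ S, ∀ e' ∈ S, 0 ≤ E i e e' ∧ (E i e e' ≠ 0 → max (cc e) (cc e') = i ∧
      hl e' - hl e = l ∧ ∃ u1 v1 H, PairX g x i (nu e) (nu e') u1 a v1 b H ∧
        E i e e' ≤ bdX g c1 c x i θ (cc e) (cc e') (nu e) (nu e') (Fm e) (Fm e') u1 a v1 b)) →
    ∑ i ∈ I, ∑ e ∈ S, ∑ e' ∈ S, E i e e' ≤ C * ((a : ℝ) * b) ^ (-(2 / 5) : ℝ) *
      ((∑ e ∈ S.filter (fun e => (a * b).primeFactors ⊆ Dvx g x (nu e)), Fm e) ^ θ *
        (∑ e ∈ S.filter (fun e => (a * b).primeFactors ⊆ Dvx g x (nu e)), Fm e) ^ (1 - θ))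

end Vale.P028.SK
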