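import Vale.Agent.P028.MathlibUsed
import Vale.Agent.P028.H734.X2PDefs
attribute [-instance] ProperSMul.toContinuousSMul IsTopologicalTorsor.toContinuousSMul IdemSemiring.toCanonicallyOrderedAdd IdemSemiring.toMulLeftMono IdemSemiring.toMulRightMono AddQuantale.instAddLeftMono AddQuantale.instAddRightMono Quantale.instMulLeftMono Quantale.instMulRightMono FiniteDimensional.rclike_to_real IsScalarTower.complexToReal FiniteDimensional.complexToReal

/-!
# The frame of nested averages on pairs (number, size)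
-/

namespace Vale.P028.SK

open Finset CF RN

variable {g : Cfg}

/-- all the stages end above `zs` as soon as one does -/
theorem zs_le_z_of {i : ℕ} (h : zs g ≤ z g i) (j : ℕ) : zs g ≤ z g j := by
  have h1 : ∀ k, min (Jt g 0) (max 1 g.Js) ≤ Jt g k := by
    intro k
    induction k with
    | zero => exact min_le_left _ _
    | succ k ih =>
      rw [Jt_succ]
      exact le_min ih ((min_le_right _ _).trans (le_max_left _ _))
  have hC : (0 : ℝ) ≤ g.K.C2 := by linarith [g.K.C2_ge]
  rcases min_le_iff.1 (h1 (j - 1)) with h3 | h3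
  · refine h.trans ?_
    unfold z JJ
    refine Nat.floor_le_floor (Real.rpow_le_rpow ?_ ?_ hC)
    · linarith [one_le_Jt g (i - 1)]
    · exact (Jt_anti g (Nat.zero_le _)).trans h3
  · unfold z JJ zs
    exact Nat.floor_le_floor (Real.rpow_le_rpow (zero_le_one.trans (le_max_left _ _)) h3 hC)

/-- same future, same size -/
def relX (g : Cfg) (i : ℕ) (a b : ℕ × ℤ) : Prop := Sf g i a.1 b.1 ∧ a.2 = b.2

open Classical in
/-- **The frame on pairs (number, size).** -/
theorem nstX {U : Finset ℕ} {Lz : Finset ℤ} (hU : Gd g U) (hz : ∀ i, zs g ≤ z g i) :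
    Db.Nst (U ×ˢ Lz) (relX g) (fun i a => Wt g i a.1) (fun a => f g a.1)
      (fun i a => pcU g i a.1) where
  symm := fun _ _ _ _ _ h => ⟨h.1.symm, h.2.symm⟩
  trans := fun _ _ _ _ _ _ _ h h' => ⟨h.1.trans h'.1, h.2.trans h'.2⟩
  mono := fun _ _ hji _ _ _ _ h => ⟨h.1.mono hji, h.2⟩
  W_nonneg := fun _ _ _ => Wt_nonneg _ _
  sum_le := fun i x hx => by
    obtain ⟨hx1, hx2⟩ := mem_product.1 hx
    refine le_trans ?_ (sum_Sf_le_oneU hU (hz i) hx1 (Subset.refl U))
    have hinj : Set.InjOn (fun y : ℕ × ℤ => y.1)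
        ((U ×ˢ Lz).filter (fun y => relX g i x y) : Set (ℕ × ℤ)) := by
      intro y hy y' hy' h
      have h1 := (mem_filter.1 (Finset.mem_coe.1 hy)).2.2
      have h2 := (mem_filter.1 (Finset.mem_coe.1 hy')).2.2
      exact Prod.ext h (h1.symm.trans h2)
    rw [← sum_image (f := fun y => Wt g i y) (g := fun y : ℕ × ℤ => y.1) hinj]
    refine sum_le_sum_of_subset_of_nonneg (fun y hy => ?_) fun _ _ _ => Wt_nonneg _ _
    obtain ⟨y', hy', rfl⟩ := mem_image.1 hy
    obtain ⟨h1, h2⟩ := mem_filter.1 hy'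
    exact mem_filter.2 ⟨(mem_product.1 h1).1, h2.1⟩
  P_eq := fun i x hx => by
    have h1 := hU x.1 (mem_product.1 hx).1
    exact f_eq_Wt_pc (hz i) h1.1 h1.2
  P_nonneg := fun x _ => f_nonneg g x.1
  pc_eq := fun _ _ _ _ _ h => pcU_congr h.1

end Vale.P028.SK
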