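import Vale.Agent.P028.MathlibUsed
import Vale.Agent.P028.H734.LkX
import Vale.Agent.P028.R2.Form2
attribute [-instance] ProperSMul.toContinuousSMul IsTopologicalTorsor.toContinuousSMul IdemSemiring.toCanonicallyOrderedAdd IdemSemiring.toMulLeftMono IdemSemiring.toMulRightMono AddQuantale.instAddLeftMono AddQuantale.instAddRightMono Quantale.instMulLeftMono Quantale.instMulRightMono FiniteDimensional.rclike_to_real IsScalarTower.complexToReal FiniteDimensional.complexToReal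

/-!
# The energy theorem at a cut, one rest pattern and one gap
-/

namespace Vale.P028.SK

open Finset CF RN

variable {g : Cfg}

/-! ### The theorem -/

/-- **the energy theorem at a cut for one rest pattern and one gap** -/
theorem x2p {c1 c θ : ℝ} (h1 : 0 < c1) (hc : 0 ≤ c) (hc1 : c < 1) (hθ : 0 < θ) (hθ' : θ < 1) :
    X2P c1 c θ (1 / (1 - c) * Real.exp (2 * c * c1) * Real.exp (2 * c * c1) *
      (1 / θ + 1 / (1 - θ))) := by
  classical
  intro g x hx hz β S nu hl cc Fm HF a b l hab ha hb I E hI hE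
  have hθ1 : 0 < 1 - θ := by linarith
  set D := (a * b).primeFactors with hD
  -- trivial case
  rcases I.eq_empty_or_nonempty with hI0 | ⟨i₀, hi₀⟩
  · rw [hI0, sum_empty]
    have h2 : 0 < 1 - c := by linarith
    refine mul_nonneg (mul_nonneg (by positivity) (by positivity)) (mul_nonneg
      (Real.rpow_nonneg (sum_nonneg fun e he => HF.mass e (mem_filter.1 he).1) _)
      (Real.rpow_nonneg (sum_nonneg fun e he => HF.mass e (mem_filter.1 he).1) _))
  have hzz : ∀ j, zs g ≤ z g j := zs_le_z_of (hx.trans (hI i₀ hi₀))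
  -- the families
  set SD := S.filter (fun e => D ⊆ Dvx g x (nu e)) with hSD
  set S2 := SD.filter (fun e => ShP g x (nu e) a b) with hS2
  set nu2 : β → ℕ := fun e => nu e / b * a with hnu2
  have hSDS : ∀ e ∈ SD, e ∈ S := fun e he => (mem_filter.1 he).1
  have hS2S : ∀ e ∈ S2, e ∈ S ∧ ShP g x (nu e) a b := fun e he =>
    ⟨hSDS e (mem_filter.1 he).1, (mem_filter.1 he).2⟩
  set n := S.sup nu + S.sup nu2 with hn
  have hn1 : ∀ e ∈ S, nu e ≤ n := fun e he => (le_sup (f := nu) he).trans (Nat.le_add_right _ _)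
  have hn2 : ∀ e ∈ S, nu2 e ≤ n := fun e he => (le_sup (f := nu2) he).trans (Nat.le_add_left _ _)
  set U := (Icc 1 n).filter (fun y => ∀ p, (Qc g y).factorization p ≤ Eb g) with hUdef
  have hU : Gd g U := fun y hy => ⟨(mem_Icc.1 (mem_filter.1 hy).1).1, (mem_filter.1 hy).2⟩
  set Lz := S.image hl ∪ S.image (fun e => hl e - l) with hLz
  have hUm : ∀ {R j m : ℕ}, R ≤ n → (∀ p, (Qc g R).factorization p ≤ Eb g) → Fil g x j R m →
      R / m ∈ U := by
    intro R j m hR hq hF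
    have h2 := hF.Gd hx hq
    exact mem_filter.2 ⟨mem_Icc.2 ⟨h2.1, (Nat.div_le_self _ _).trans hR⟩, h2.2⟩
  have hgd2 : ∀ e ∈ S2, ∀ p, (Qc g (nu2 e)).factorization p ≤ Eb g := by
    intro e he p
    simp only [hnu2]
    rw [(hS2S e he).2.Qc]
    exact HF.gd e (hS2S e he).1 p
  have H1 := lkX h1 hz hc hc1 hx (S := SD) (nu := nu) (cc := cc) (hl := hl)
    (fun e he e' he' => HF.inj e (hSDS e he) e' (hSDS e' he')) (fun e he => HF.pos e (hSDS e he))
    (fun e he => HF.gd e (hSDS e he)) n (U := U) (Lz := Lz)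
    (fun e he m hm => hUm (hn1 e (hSDS e he)) (HF.gd e (hSDS e he)) hm)
    (fun e he => mem_union_left _ (mem_image_of_mem _ (hSDS e he))) (1 / θ)
  have H2 := lkX h1 hz hc hc1 hx (S := S2) (nu := nu2) (cc := cc) (hl := fun e => hl e - l)
    (fun e he e' he' h2 h3 => by
      have e1 := hS2S e he
      have e2 := hS2S e' he'
      refine HF.inj e e1.1 e' e2.1 ?_ (by omega)
      simp only [hnu2] at h2
      have h4 := Nat.eq_of_mul_eq_mul_right ha h2
      rw [← Nat.div_mul_cancel e1.2.dvd, ← Nat.div_mul_cancel e2.2.dvd, h4])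
    (fun e he => (hS2S e he).2.pos) hgd2 n (U := U) (Lz := Lz)
    (fun e he m hm => hUm (hn2 e (hS2S e he).1) (hgd2 e he) hm)
    (fun e he => mem_union_right _ (mem_image_of_mem (fun e => hl e - l) (hS2S e he).1))
    (1 / (1 - θ))
  have hpq : (1 / θ).HolderConjugate (1 / (1 - θ)) := by
    rw [Real.holderConjugate_iff]
    refine ⟨by rw [lt_div_iff₀ hθ]; linarith, ?_⟩
    rw [one_div, one_div, inv_inv, inv_inv]
    ring
  have HN := nstX (Lz := Lz) hU hzz
  set ξ : β → ℝ := fun e => (Fm e / f g (nu e)) ^ θ with hξ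
  set η : β → ℝ := fun e => (Fm e / f g (nu2 e)) ^ (1 - θ) with hη
  have hf1 : ∀ e ∈ SD, 0 < f g (nu e) := fun e he => f_posX (HF.pos e (hSDS e he))
  have hf2 : ∀ e ∈ S2, 0 < f g (nu2 e) := fun e he => f_posX (hS2S e he).2.pos
  set w : ℝ := ((a : ℝ) * b) ^ (-(2 / 5) : ℝ) with hw
  have ha0 : (0 : ℝ) < a := by exact_mod_cast ha
  have hb0 : (0 : ℝ) < b := by exact_mod_cast hb
  have hw0 : 0 < w := Real.rpow_pos_of_pos (mul_pos ha0 hb0) _
  -- only the participants count
  have hpart : ∀ i ∈ I, ∀ e ∈ S, ∀ e' ∈ S, E i e e' ≠ 0 → e ∈ SD ∧ e' ∈ S2 := by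
    intro i hi e he e' he' hne
    obtain ⟨-, -, u1, v1, H, hP, -⟩ := (hE i hi e he e' he').2 hne
    have h2 := hP.sub
    exact ⟨mem_filter.2 ⟨he, h2.1⟩, mem_filter.2 ⟨mem_filter.2 ⟨he', h2.2⟩,
      hP.shp hx (HF.gd e he)⟩⟩
  have e0 : ∑ i ∈ I, ∑ e ∈ S, ∑ e' ∈ S, E i e e' = ∑ i ∈ I, ∑ e ∈ SD, ∑ e' ∈ S2, E i e e' := by
    refine sum_congr rfl fun i hi => ?_
    rw [← sum_subset (filter_subset _ S : SD ⊆ S)]
    · refine sum_congr rfl fun e he => ?_
      refine (sum_subset (fun e' he' => (hS2S e' he').1) fun e' he' hne => ?_).symm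
      by_contra h0
      exact hne (hpart i hi e (hSDS e he) e' he' h0).2
    · intro e he hne
      refine sum_eq_zero fun e' he' => ?_
      by_contra h0
      exact hne (hpart i hi e he e' he' h0).1
  have key := Dp.form2 HN hpq H1 H2 (Real.exp_pos _).le (Real.exp_pos _).le
    (by have : 0 < 1 - c := by linarith
        positivity : (0 : ℝ) ≤ 1 / (1 - c)) (ξ₁ := ξ) (ξ₂ := η)
    (fun e he => Real.rpow_nonneg (div_nonneg (HF.mass e (hSDS e he)) (hf1 e he).le) _)
    (fun e he => Real.rpow_nonneg (div_nonneg (HF.mass e (hS2S e he).1) (hf2 e he).le) _)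
    (fun e he => (hf1 e he).le) (fun e he => (hf2 e he).le) I
    (fun i e e' => w⁻¹ * E i e e') ?_
  · have s1 : ∑ e ∈ SD, f g (nu e) * ξ e ^ (1 / θ) = ∑ e ∈ SD, Fm e := by
      refine sum_congr rfl fun e he => ?_
      have h2 := hf1 e he
      simp only [hξ]
      rw [← Real.rpow_mul (div_nonneg (HF.mass e (hSDS e he)) h2.le), mul_one_div_cancel hθ.ne',
        Real.rpow_one, mul_div_cancel₀ _ h2.ne']
    have s2 : ∑ e ∈ S2, f g (nu2 e) * η e ^ (1 / (1 - θ)) = ∑ e ∈ S2, Fm e := by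
      refine sum_congr rfl fun e he => ?_
      have h2 := hf2 e he
      simp only [hη]
      rw [← Real.rpow_mul (div_nonneg (HF.mass e (hS2S e he).1) h2.le), mul_one_div_cancel hθ1.ne',
        Real.rpow_one, mul_div_cancel₀ _ h2.ne']
    rw [s1, s2, one_div_one_div, one_div_one_div] at key
    have s3 : ∑ e ∈ S2, Fm e ≤ ∑ e ∈ SD, Fm e :=
      sum_le_sum_of_subset_of_nonneg (filter_subset _ _) fun e he _ => HF.mass e (hSDS e he)
    have s4 : 0 ≤ ∑ e ∈ S2, Fm e := sum_nonneg fun e he => HF.mass e (hS2S e he).1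
    have s5 : ∑ i ∈ I, ∑ e ∈ SD, ∑ e' ∈ S2, w⁻¹ * E i e e' =
        w⁻¹ * ∑ i ∈ I, ∑ e ∈ SD, ∑ e' ∈ S2, E i e e' := by
      simp only [mul_sum]
    rw [s5] at key
    rw [e0]
    have s6 : 0 ≤ ∑ e ∈ SD, Fm e := s4.trans s3
    have h2 : 0 < 1 - c := by linarith
    calc ∑ i ∈ I, ∑ e ∈ SD, ∑ e' ∈ S2, E i e e' =
          w * (w⁻¹ * ∑ i ∈ I, ∑ e ∈ SD, ∑ e' ∈ S2, E i e e') := by
          rw [mul_inv_cancel_left₀ hw0.ne']
      _ ≤ w * (1 / (1 - c) * Real.exp (2 * c * c1) * Real.exp (2 * c * c1) *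
          (1 / θ + 1 / (1 - θ)) * ((∑ e ∈ SD, Fm e) ^ θ * (∑ e ∈ SD, Fm e) ^ (1 - θ))) := by
          refine mul_le_mul_of_nonneg_left (key.trans ?_) hw0.le
          refine mul_le_mul_of_nonneg_left (mul_le_mul_of_nonneg_left
            (Real.rpow_le_rpow s4 s3 hθ1.le) (Real.rpow_nonneg s6 _)) (by positivity)
      _ = _ := by ring
  · intro i hi e he e' he'
    have heS := hSDS e he
    have he'S := hS2S e' he'
    obtain ⟨hE0, hE1⟩ := hE i hi e heS e' he'S.1
    refine ⟨mul_nonneg (inv_nonneg.2 hw0.le) hE0, fun hne => ?_⟩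
    have hne' : E i e e' ≠ 0 := fun h0 => hne (by rw [h0, mul_zero])
    obtain ⟨hmax, hll, u1, v1, H, hP, hbd⟩ := hE1 hne'
    refine ⟨hmax, u1, ?_, v1, ?_, ?_, ?_, ?_, ?_⟩
    · exact mem_Icc.2 ⟨hP.fil.m_pos, (Nat.le_of_dvd hP.fil.pos hP.fil.dvd).trans (hn1 e heS)⟩
    · exact mem_Icc.2 ⟨hP.fil'.m_pos, (Nat.le_of_dvd he'S.2.pos
        ((he'S.2.fil x i v1).2 hP.fil').dvd).trans (hn2 e' he'S.1)⟩
    · exact mem_product.2 ⟨hUm (hn1 e heS) (HF.gd e heS) hP.fil,
        mem_union_left _ (mem_image_of_mem _ heS)⟩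
    · exact mem_product.2 ⟨hUm (hn2 e' he'S.1) (hgd2 e' he') ((he'S.2.fil x i v1).2 hP.fil'),
        mem_union_right _ (mem_image_of_mem (fun e => hl e - l) he'S.1)⟩
    · refine ⟨?_, ?_⟩
      · simp only [hnu2]
        rw [hP.div_eq]
        exact hP.sf.symm
      · simp only
        omega
    · -- the inequality
      have hF1 := hP.fil
      have hF2 : Fil g x i (nu2 e') v1 := (he'S.2.fil x i v1).2 hP.fil'
      have l1 : wL g c1 c x i (cc e) (nu e) u1 = wf g c1 c x (cc e) (nu e) u1 := wL_of hF1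
      have l2 : wL g c1 c x i (cc e') (nu2 e') v1 = wf g c1 c x (cc e') (nu e') v1 := by
        rw [wL_of hF2]
        exact he'S.2.wf c1 c x (cc e') v1
      have hdiv : nu2 e' / v1 = H := hP.div_eq
      simp only
      rw [l1, l2, hdiv]
      have hWt : Wt g i H = Wt g i (nu e') := by
        rw [← hdiv, hF2.Wt hx]
        exact he'S.2.Wt fun p hp => (hP.dev p hp).2.1
      have hWt1 : Wt g i (nu e / u1) = Wt g i (nu e) := hF1.Wt hx
      have hgH : 0 < H ∧ ∀ p, (Qc g H).factorization p ≤ Eb g := by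
        rw [← hdiv]
        exact hF2.Gd hx (hgd2 e' he')
      have hg1 := hF1.Gd hx (HF.gd e heS)
      have p1 := f_eq_Wt_pc (i := i) (hzz i) hg1.1 hg1.2
      have p2 := f_eq_Wt_pc (i := i) (hzz i) hgH.1 hgH.2
      have p3 : pcU g i H = pcU g i (nu e / u1) := pcU_congr hP.sf
      rw [hWt1] at p1
      have hku1 : (0 : ℝ) < u1 := by exact_mod_cast hF1.m_pos
      have hkv1 : (0 : ℝ) < v1 := by exact_mod_cast hF2.m_pos
      have hker := kernel_ineq (θ := θ) (F := Fm e) (F' := Fm e') (W := Wt g i (nu e))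
        (W' := Wt g i (nu e')) (P1 := f g (nu e / u1)) (PH := f g H) (r := f g (nu e))
        (r' := f g (nu2 e')) (u := u1) (v := v1) (a := a) (b := b) hθ hθ' (HF.mass e heS)
        (HF.mass e' he'S.1) (Wt_nonneg _ _) (Wt_nonneg _ _) (f_nonneg g _) (f_nonneg g _)
        (hf1 e he) (hf2 e' he') hku1 hkv1 ha0 hb0
        (by have := f_mul_le (g := g) hg1.1 hF1.m_pos
            rwa [hF1.mul_div] at this)
        (by have e5 := f_mul_le (g := g) hgH.1 hF2.m_pos
            have e6 : H * v1 = nu2 e' := hP.H_eq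
            rwa [e6] at e5)
        (by rw [p1, p2, hWt, p3]; ring)
      rw [hWt]
      have hw1 : 0 ≤ wf g c1 c x (cc e) (nu e) u1 := wf_nonneg h1.le hc _ _ _ _
      have hw2 : 0 ≤ wf g c1 c x (cc e') (nu e') v1 := wf_nonneg h1.le hc _ _ _ _
      have hpat := pat_ineq ha hb θ
      have hXi : 0 ≤ ξ e * η e' * (f g (nu e / u1) * Wt g i (nu e')) := by
        refine mul_nonneg (mul_nonneg ?_ ?_) (mul_nonneg (f_nonneg g _) (Wt_nonneg _ _))
        · exact Real.rpow_nonneg (div_nonneg (HF.mass e heS) (hf1 e he).le) _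
        · exact Real.rpow_nonneg (div_nonneg (HF.mass e' he'S.1) (hf2 e' he').le) _
      have hb1 : bdX g c1 c x i θ (cc e) (cc e') (nu e) (nu e') (Fm e) (Fm e') u1 a v1 b ≤
          w * (wf g c1 c x (cc e) (nu e) u1 * wf g c1 c x (cc e') (nu e') v1 *
            (ξ e * η e' * (f g (nu e / u1) * Wt g i (nu e')))) := by
        unfold bdX
        calc wf g c1 c x (cc e) (nu e) u1 * wf g c1 c x (cc e') (nu e') v1 *
              ((a : ℝ) * b) ^ (min θ (1 - θ) - 2 / 5) *
              ((Fm e * Wt g i (nu e') / (u1 * a)) ^ θ *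
                (Fm e' * Wt g i (nu e) / (v1 * b)) ^ (1 - θ)) ≤
              wf g c1 c x (cc e) (nu e) u1 * wf g c1 c x (cc e') (nu e') v1 *
              ((a : ℝ) * b) ^ (min θ (1 - θ) - 2 / 5) *
              ((a : ℝ) ^ (-θ) * (b : ℝ) ^ (-(1 - θ)) * ((Fm e / f g (nu e)) ^ θ *
                (Fm e' / f g (nu2 e')) ^ (1 - θ) * (f g (nu e / u1) * Wt g i (nu e')))) :=
              mul_le_mul_of_nonneg_left hker (by positivity)
          _ = (((a : ℝ) * b) ^ (min θ (1 - θ) - 2 / 5) *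
                ((a : ℝ) ^ (-θ) * (b : ℝ) ^ (-(1 - θ)))) *
              (wf g c1 c x (cc e) (nu e) u1 * wf g c1 c x (cc e') (nu e') v1 *
                (ξ e * η e' * (f g (nu e / u1) * Wt g i (nu e')))) := by
              simp only [hξ, hη]
              ring
          _ ≤ _ := mul_le_mul_of_nonneg_right hpat (mul_nonneg (mul_nonneg hw1 hw2) hXi)
      calc w⁻¹ * E i e e' ≤ w⁻¹ * (w * (wf g c1 c x (cc e) (nu e) u1 *
            wf g c1 c x (cc e') (nu e') v1 *
            (ξ e * η e' * (f g (nu e / u1) * Wt g i (nu e'))))) :=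
            mul_le_mul_of_nonneg_left (hbd.trans hb1) (inv_nonneg.2 hw0.le)
        _ = _ := by
            rw [inv_mul_cancel_left₀ hw0.ne']
            ring

end Vale.P028.SK
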